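import Crest.Agent.N346.P2.ConcD
import Crest.Agent.N346.P2.Core
import Crest.Agent.N346.P2.Fields
import Crest.Agent.N346.P2.Prof
import Crest.Agent.N346.P2.Zero
import Crest.Agent.N346.P2.Var
import Crest.Agent.N346.P2.Top
import Crest.Agent.N346.P2.Iso
import Crest.Agent.N346.P2.Cpt
import Crest.Agent.N346.P2.Cut
import Crest.Agent.N346.P2.Shield
import Crest.Agent.N346.P2.NeckC
import Crest.Agent.N346.Sp.Main

/-!
Row 346, P2 (helper11): the assembly of `P2/Asm.lean` (helper89), `P2/All.lean` and `P2/Done.lean`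
again, in the namespace `P2.Fin` and without the second declaration of `P2.cn_pos`, which collides
with the one of `P2/IsoFlat.lean` in the kernel check.
-/

set_option autoImplicit false
open MeasureTheory Filter Topology Set
open scoped ContDiff ENNReal InnerProductSpace
open Crest.GeometryTopology.CoordMetric
open Crest.MathPhysics.ExteriorData

noncomputable section
namespace Crest.Agent.N346.P2.Fin
open Crest.Agent.N346.Bs

theorem eSq_nonneg' {n : ℕ} {g : MetricField n} (hg : IsRiemannianOn g Set.univ)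
    (EE : VectorField n) (x : E n) : 0 ≤ eSq g EE x :=
  div_nonneg (qb_nonneg (riem_posDef hg x) _) (det_pos hg x).le

theorem aa_pos {n : ℕ} (hn : 3 ≤ n) : 0 < aa n := by
  have : (3 : ℝ) ≤ n := by exact_mod_cast hn
  exact one_div_pos.2 (by linarith)

theorem aa_le {n : ℕ} (hn : 3 ≤ n) : aa n ≤ 1 := by
  have : (3 : ℝ) ≤ n := by exact_mod_cast hn
  exact (div_le_one (by linarith)).2 (by linarith)

theorem cn_mul {n : ℕ} (hn : 3 ≤ n) {x : ℝ} (hx : 0 ≤ x) :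
    cn n * (1 + 2 * aa n) * ((((n : ℝ) - 2) * unitSphereArea n) * x) ^ (2 + 2 * aa n)
      = unitSphereArea n ^ 2 * x ^ (2 + 2 * aa n) := by
  have h3 : (3 : ℝ) ≤ n := by exact_mod_cast hn
  have h := unitSphereArea_pos (n := n) (by omega)
  have hc : 0 < ((n : ℝ) - 2) * unitSphereArea n := mul_pos (by linarith) h
  have e : (((n : ℝ) - 2) * unitSphereArea n) ^ (-(1 + 2 * aa n)) *
      (((n : ℝ) - 2) * unitSphereArea n) ^ (2 + 2 * aa n) = ((n : ℝ) - 2) * unitSphereArea n := by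
    rw [← Real.rpow_add hc, show -(1 + 2 * aa n) + (2 + 2 * aa n) = 1 by ring, Real.rpow_one]
  have h2 : (n : ℝ) - 2 ≠ 0 := by linarith
  have h0 : (n : ℝ) ≠ 0 := by linarith
  rw [Real.mul_rpow hc.le hx, cn]
  calc _ = unitSphereArea n / n * (1 + 2 * aa n) * ((((n : ℝ) - 2) * unitSphereArea n) ^
        (-(1 + 2 * aa n)) * (((n : ℝ) - 2) * unitSphereArea n) ^ (2 + 2 * aa n)) *
        x ^ (2 + 2 * aa n) := by ring
    _ = _ := by rw [e, aa]; field_simp; ring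

/-- the right hand side of `TopStmt` -/
def rhs (n : ℕ) (μ Q η : ℝ) : ℝ := (1 + η) * (cn n * (1 + 2 * aa n)) *
  (2 * (μ + η + Real.sqrt ((μ + η) ^ 2 - qq n η η Q ^ 2))) ^ (2 + 2 * aa n)

theorem continuousAt_qq {n : ℕ} (hn : 3 ≤ n) (Q : ℝ) : ContinuousAt (fun η => qq n η η Q) 0 := by
  have := aa_pos hn
  unfold qq
  refine ContinuousAt.mul (ContinuousAt.sqrt (ContinuousAt.div (by fun_prop) (by fun_prop) ?_))
    continuousAt_const
  positivity

theorem continuousAt_rhs {n : ℕ} (hn : 3 ≤ n) (μ Q : ℝ) : ContinuousAt (rhs n μ Q) 0 := by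
  have := aa_pos hn
  have h := continuousAt_qq hn Q
  unfold rhs
  refine ContinuousAt.mul (by fun_prop) (ContinuousAt.rpow_const ?_ (Or.inr (by positivity)))
  exact continuousAt_const.mul ((continuousAt_const.add continuousAt_id).add
    (((continuousAt_const.add continuousAt_id).pow 2).sub (h.pow 2)).sqrt)

theorem exists_eta {P : ℝ → Prop} (h : ∀ᶠ η in 𝓝 (0 : ℝ), P η) : ∃ η, 0 < η ∧ η ≤ 1 ∧ P η := by
  have h1 : ∀ᶠ η in 𝓝[>] (0 : ℝ), P η := h.filter_mono nhdsWithin_le_nhds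
  have h2 : ∀ᶠ η in 𝓝[>] (0 : ℝ), η ∈ Ioc (0 : ℝ) 1 := Ioc_mem_nhdsGT zero_lt_one
  obtain ⟨η, h3, h4⟩ := (h2.and h1).exists
  exact ⟨η, h3.1, h3.2, h4⟩

section
variable (hS : SPStmt) (hI : IsoStmt) (hsob : SobStmt) (hC : CptStmt) (hcut : CutStmt)
  (hN : NeckStmt) (hT : TopStmt)
include hS hI hsob hC hcut hN hT

theorem neck_top {n : ℕ} (hn : 3 ≤ n) {m Q η : ℝ} (hm : 0 < m) (hQ : 0 ≤ Q) (hη : 0 < η)
    (hη1 : η ≤ 1) (N : ℕ) : ∃ ℓ0 : ℝ, ∀ ℓ ≥ ℓ0, ∀ A : ℝ, 0 ≤ A →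
      ∀ (g : MetricField n) (d U : E n → ℝ) (EE : VectorField n),
      N346.Neck n η (ℓ ^ N) ℓ m A Q g d U EE →
      qq n η η Q ≤ ((n : ℝ) - 2) * unitSphereArea n * m / 2 ∧
        A ^ 2 ≤ rhs n (((n : ℝ) - 2) * unitSphereArea n * m / 2) Q η := by
  have h3 : (3 : ℝ) ≤ n := by exact_mod_cast hn
  have hω := unitSphereArea_pos (n := n) (by omega)
  have hμ : 0 < ((n : ℝ) - 2) * unitSphereArea n * m / 2 :=
    half_pos (mul_pos (mul_pos (by linarith) hω) hm)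
  have hq : 0 ≤ qq n η η Q := mul_nonneg (Real.sqrt_nonneg _) (mul_nonneg hω.le hQ)
  obtain ⟨C, hC1, hN⟩ := hN
  obtain ⟨ω₀, hω₀, hT⟩ := hT (aa n) _ _ η η (cn n) (aa_pos hn) (aa_le hn) hμ hq hη hη (cn_pos hn)
  have ev1 : ∀ᶠ ℓ : ℝ in atTop, C * (1 + Real.log (ℓ ^ N)) ≤ ℓ := by
    have hc : 0 < 1 / (2 * C * (N + 1)) := by positivity
    filter_upwards [Real.isLittleO_log_id_atTop.bound hc, eventually_ge_atTop (2 * C),
      eventually_ge_atTop 1] with ℓ h1 h2 h4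
    have h5 := Real.log_nonneg h4
    rw [Real.norm_of_nonneg h5, id, Real.norm_of_nonneg (by linarith), one_div,
      ← div_eq_inv_mul, le_div_iff₀ (by positivity)] at h1
    rw [Real.log_pow]
    nlinarith [mul_nonneg h5 (show 0 ≤ C by linarith)]
  have ev2 : ∀ᶠ ℓ : ℝ in atTop, C / ℓ ≤ ω₀ :=
    (tendsto_const_nhds.div_atTop tendsto_id).eventually (ge_mem_nhds hω₀)
  obtain ⟨ℓ0, hℓ0⟩ := eventually_atTop.1 ((ev1.and ev2).and (eventually_ge_atTop 1))
  refine ⟨ℓ0, fun ℓ hℓ A hA g d U EE h => ?_⟩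
  obtain ⟨⟨l1, l2⟩, l3⟩ := hℓ0 ℓ hℓ
  have hΛ : 1 ≤ ℓ ^ N := one_le_pow₀ l3
  have hE : EndD n g U (((n : ℝ) - 2) * unitSphereArea n * m / 2) :=
    ⟨h.riem, ⟨_, hΛ, h.g_lo, h.g_hi⟩, h.U_smooth, h.U_pos, h.g_inf, h.U_lim, h.U_grad, h.U_hardy,
      h.mass, ℓ ^ N, fun x hx => le_trans (mul_nonneg (by linarith) (eSq_nonneg' h.riem EE x))
        (h.R_out x (by rw [h.d_far x hx]; linarith))⟩
  obtain ⟨F, hF, hsp⟩ := hS n hn g U _ hE
  have hne := hN n hn η η _ ℓ m A Q g F d U EE h hF hη1 hη hη1 hΛ l1 (dclass hF) rfl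
  choose u₀ G₀ Q₀ hu hu' hnk using hne
  exact hT (E n) (E n) (nu g) (dclass hF) (C / ℓ) A (by positivity) l2 hA
    { ρ := fun x => scalarCurv g x / 4
      Z := {x | ℓ - 1 / 2 ≤ d x}
      Z' := Metric.closedBall 0 (ℓ ^ N)
      Z_sub := fun x hx => by
        by_contra hc
        rw [mem_closedBall_zero_iff, not_le] at hc
        have := h.d_far x hc.le
        rw [mem_setOf_eq, this] at hx
        linarith
      sp := hsp _ rfl
      u₀ := u₀
      G₀ := G₀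
      Q₀ := Q₀
      u₀_D := hu
      u₀_mem := hu'
      neck := hnk
      iso := hI n hn g F U _ hE hF
      sob := hsob n hn g F hF
      cpt := hC n hn g F hF
      cut := hcut n hn g F hF d _ ℓ A h.d_smooth h.d_far l3 h.area }

theorem p2u_of : P2UStmt := by
  intro n hn m A hm hA hlt
  have h3 : (3 : ℝ) ≤ n := by exact_mod_cast hn
  have hω := unitSphereArea_pos (n := n) (by omega)
  have ha := aa_pos hn
  have h0 : rhs n (((n : ℝ) - 2) * unitSphereArea n * m / 2) 0 0 < A ^ 2 := by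
    have hμ : 0 ≤ ((n : ℝ) - 2) * unitSphereArea n * m / 2 :=
      (half_pos (mul_pos (mul_pos (by linarith) hω) hm)).le
    simp only [rhs, qq, mul_zero, add_zero, one_mul, ne_eq, OfNat.ofNat_ne_zero, not_false_eq_true,
      zero_pow, sub_zero, Real.sqrt_sq hμ]
    rw [show 2 * (((n : ℝ) - 2) * unitSphereArea n * m / 2 +
      ((n : ℝ) - 2) * unitSphereArea n * m / 2) = ((n : ℝ) - 2) * unitSphereArea n * (2 * m) by ring,
      cn_mul hn (by positivity)]
    have h1 : 2 * m < (A / unitSphereArea n) ^ (((n : ℝ) - 2) / ((n : ℝ) - 1)) := by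
      unfold PB at hlt; linarith
    have h2 := Real.rpow_lt_rpow (by positivity) h1 (show 0 < 2 + 2 * aa n by positivity)
    have h4 : ((n : ℝ) - 2) / ((n : ℝ) - 1) * (2 + 2 * aa n) = (2 : ℕ) := by
      have : (n : ℝ) - 2 ≠ 0 := by linarith
      have : (n : ℝ) - 1 ≠ 0 := by linarith
      rw [aa]; field_simp; push_cast; ring
    rw [← Real.rpow_mul (by positivity), h4, Real.rpow_natCast, div_pow,
      lt_div_iff₀ (by positivity)] at h2
    linarith
  obtain ⟨η, h1, h2, h4⟩ := exists_eta ((continuousAt_rhs hn _ 0).eventually (gt_mem_nhds h0))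
  refine ⟨η, h1, fun N => ?_⟩
  obtain ⟨ℓ0, hℓ⟩ := neck_top hS hI hsob hC hcut hN hT hn hm le_rfl h1 h2 N
  exact ⟨ℓ0, fun ℓ hl g d U h => absurd (hℓ ℓ hl A hA.le g d U _ h).2 (not_le.2 h4)⟩

theorem p2c_of : P2CStmt := by
  intro m A Q hm hA hQ hlt
  have hω := unitSphereArea_pos (n := 3) (by omega)
  have hω4 : unitSphereArea 3 = 4 * Real.pi := by
    have h1 : Real.Gamma ((3 : ℕ) / 2 : ℝ) = √Real.pi / 2 := by
      rw [show ((3 : ℕ) / 2 : ℝ) = 1 / 2 + 1 by norm_num, Real.Gamma_add_one (by norm_num),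
        Real.Gamma_one_half_eq]; ring
    have h2 : Real.pi ^ ((3 : ℕ) / 2 : ℝ) = Real.pi * √Real.pi := by
      rw [show ((3 : ℕ) / 2 : ℝ) = 1 + 1 / 2 by norm_num, Real.rpow_add Real.pi_pos,
        Real.rpow_one, Real.sqrt_eq_rpow]
    have h3 := (Real.sqrt_pos.2 Real.pi_pos).ne'
    rw [unitSphereArea, h1, h2]; field_simp; ring
  have ha : aa 3 = 1 := by norm_num [aa]
  have hq0 : qq 3 0 0 Q = unitSphereArea 3 * Q / 2 := by
    rw [qq, ha, show ((1 : ℝ) - 0) / (2 * (1 + 1 + 0)) = (1 / 2) ^ 2 by norm_num,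
      Real.sqrt_sq (by norm_num)]; ring
  have key : ∃ η, 0 < η ∧ η ≤ 1 ∧ ¬ (qq 3 η η Q ≤ (((3 : ℕ) : ℝ) - 2) * unitSphereArea 3 * m / 2 ∧
      A ^ 2 ≤ rhs 3 ((((3 : ℕ) : ℝ) - 2) * unitSphereArea 3 * m / 2) Q η) := by
    rcases hlt with hlt | hlt
    · have h0 : (((3 : ℕ) : ℝ) - 2) * unitSphereArea 3 * m / 2 < qq 3 0 0 Q := by
        rw [hq0]; push_cast; nlinarith
      exact exists_eta (((continuousAt_qq le_rfl Q).eventually (lt_mem_nhds h0)).mono
        fun η h h' => absurd h'.1 (not_le.2 h))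
    · have h0 : rhs 3 ((((3 : ℕ) : ℝ) - 2) * unitSphereArea 3 * m / 2) Q 0 < A ^ 2 := by
        have hs := Real.sqrt_nonneg (m ^ 2 - Q ^ 2)
        have e : 2 * ((((3 : ℕ) : ℝ) - 2) * unitSphereArea 3 * m / 2 + 0 +
            √(((((3 : ℕ) : ℝ) - 2) * unitSphereArea 3 * m / 2 + 0) ^ 2 - qq 3 0 0 Q ^ 2))
            = (((3 : ℕ) : ℝ) - 2) * unitSphereArea 3 * (m + √(m ^ 2 - Q ^ 2)) := by
          rw [hq0, show ((((3 : ℕ) : ℝ) - 2) * unitSphereArea 3 * m / 2 + 0) ^ 2 -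
            (unitSphereArea 3 * Q / 2) ^ 2 = (unitSphereArea 3 / 2) ^ 2 * (m ^ 2 - Q ^ 2) by
              push_cast; ring, Real.sqrt_mul (sq_nonneg _), Real.sqrt_sq (by positivity)]
          push_cast; ring
        rw [rhs, e, add_zero, one_mul, cn_mul le_rfl (by positivity), ha,
          show (2 : ℝ) + 2 * 1 = (4 : ℕ) by norm_num, Real.rpow_natCast, hω4]
        have hp : 0 < 4 * Real.pi := by positivity
        have h1 : (m + √(m ^ 2 - Q ^ 2)) ^ 2 < A / (4 * Real.pi) :=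
          Real.lt_sqrt (by positivity) |>.1 hlt
        rw [lt_div_iff₀ hp] at h1
        calc (4 * Real.pi) ^ 2 * (m + √(m ^ 2 - Q ^ 2)) ^ 4
            = ((m + √(m ^ 2 - Q ^ 2)) ^ 2 * (4 * Real.pi)) ^ 2 := by ring
          _ < A ^ 2 := by gcongr
      exact exists_eta (((continuousAt_rhs le_rfl _ Q).eventually (gt_mem_nhds h0)).mono
        fun η h h' => absurd h'.2 (not_le.2 h))
  obtain ⟨η, h1, h2, h4⟩ := key
  refine ⟨η, h1, fun N => ?_⟩
  obtain ⟨ℓ0, hℓ⟩ := neck_top hS hI hsob hC hcut hN hT le_rfl hm hQ h1 h2 N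
  exact ⟨ℓ0, fun ℓ hl g d U EE h => h4 (hℓ ℓ hl A hA.le g d U EE h)⟩

end

theorem topAll : TopStmt := top prof (core fields) zero comp area var

theorem p2U : P2UStmt := p2u_of Sp.sp iso' sob cpt' cut (neck shield) topAll

theorem p2C : P2CStmt := p2c_of Sp.sp iso' sob cpt' cut (neck shield) topAll

end Crest.Agent.N346.P2.Fin

end
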